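import Vale.Agent.P069.Convexity

/-!
P069: a reflexive Banach space with an equivalent AMUC norm and no equivalent AUC norm.
-/

namespace Vale.Agent.Results.P069.ReflexiveAmucNotAuc

open Vale.Agent.P069

theorem result :
    ∃ (X : Type) (_ : NormedAddCommGroup X) (_ : NormedSpace ℝ X),
      CompleteSpace X ∧ ¬ FiniteDimensional ℝ X ∧
        Function.Surjective (NormedSpace.inclusionInDoubleDual ℝ X) ∧
        (∃ N : Seminorm ℝ X, IsEquivNorm N ∧ IsAMUC N) ∧
        ¬ ∃ N : Seminorm ℝ X, IsEquivNorm N ∧ IsAUC N :=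
  ⟨X, inferInstance, inferInstance, inferInstance, not_finiteDimensional, surjective_bidual,
    ⟨normSeminorm ℝ X, isEquivNorm_norm, isAMUC_norm⟩,
    fun ⟨N, hN, hN'⟩ => not_isAUC N hN hN'⟩

end Vale.Agent.Results.P069.ReflexiveAmucNotAuc
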